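import Vale.Agent.P038.H139.Basic

/-!
# The star construction: from an optimal pair at level two to a compatible pair at level one
-/

namespace Vale.Agent.P038.H58

open Finset Vale.Agent.P038.H139

variable {V : Type*} [Fintype V] [DecidableEq V]

/-- The cost `w(N[R]) - (1 + s) w(R)`. -/
noncomputable def cs (D : OGraph V) (w : V → ℝ) (s : ℝ) (R : Finset V) : ℝ :=
  W w (cl D R) - (1 + s) * W w R

open Classical in
/-- `star B a` is the intersection of the sets `B u` over the closed in-neighbourhood of `a`. -/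
noncomputable def star (D : OGraph V) (B : V → Finset V) (a : V) : Finset V :=
  Finset.univ.filter fun v => ∀ u, (u = a ∨ D.arc u a) → v ∈ B u

theorem mem_star {D : OGraph V} {B : V → Finset V} {a v : V} :
    v ∈ star D B a ↔ ∀ u, (u = a ∨ D.arc u a) → v ∈ B u := by
  classical
  simp [star]

theorem mem_cl' {D : OGraph V} {S : Finset V} {x : V} :
    x ∈ cl D S ↔ ∃ v, (v = x ∨ D.arc v x) ∧ v ∈ S := by
  rw [mem_cl]
  constructor
  · rintro (h | ⟨y, hy, hyx⟩)
    · exact ⟨x, Or.inl rfl, h⟩
    · exact ⟨y, Or.inr hyx, hy⟩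
  · rintro ⟨v, h | h, hv⟩
    · exact Or.inl (h ▸ hv)
    · exact Or.inr ⟨v, hv, h⟩

/-- Total cost of a family. -/
noncomputable def G (D : OGraph V) (w : V → ℝ) (s : ℝ) (B : V → Finset V) : ℝ :=
  ∑ a, w a * cs D w s (B a)

/-- Feasible pairs. -/
structure Feas (D : OGraph V) (P Q : V → Finset V) : Prop where
  hP : ∀ a b, (a = b ∨ D.arc a b) → b ∈ P a
  hQ : ∀ a b, (a = b ∨ D.arc a b) → b ∈ Q a
  anti : ∀ a b, b ∈ P a → a ∈ Q b → a = b

theorem Feas.swap {D : OGraph V} {P Q : V → Finset V} (h : Feas D P Q) : Feas D Q P :=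
  ⟨h.hQ, h.hP, fun a b h1 h2 => (h.anti b a h2 h1).symm⟩

theorem Feas.cl_star {D : OGraph V} {P Q : V → Finset V} (h : Feas D P Q) :
    Feas D (fun a => cl D (star D P a)) (fun a => cl D (star D Q a)) := by
  refine ⟨?_, ?_, ?_⟩
  · intro a b hab
    refine mem_cl'.2 ⟨a, hab, mem_star.2 fun u hu => h.hP u a hu⟩
  · intro a b hab
    refine mem_cl'.2 ⟨a, hab, mem_star.2 fun u hu => h.hQ u a hu⟩
  · intro u x hx hu
    by_contra hne
    obtain ⟨v, hvx, hv⟩ := mem_cl'.1 hx
    obtain ⟨z, hzu, hz⟩ := mem_cl'.1 hu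
    rw [mem_star] at hv hz
    have h1 : z = v := h.anti z v (hv z hzu) (hz v hvx)
    subst h1
    -- z in N⁻[x] ∩ N⁻[u], z ∈ P u
    have h2 : u = z := h.anti u z (hv u (Or.inl rfl)) (h.hQ z u hzu)
    subst h2
    exact hne (h.anti u x (h.hP u x hvx) (hz x (Or.inl rfl)))

theorem star_self {D : OGraph V} {P Q : V → Finset V} (h : Feas D P Q) (a : V) :
    a ∈ star D P a := mem_star.2 fun u hu => h.hP u a hu

theorem W_ind (w : V → ℝ) (S : Finset V) : W w S = ∑ x, w x * (if x ∈ S then 1 else 0) := by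
  unfold W
  simp [Finset.sum_ite_mem]

theorem G_zero (D : OGraph V) (w : V → ℝ) (B : V → Finset V) :
    G D w 0 B = ∑ a, ∑ x, w a * w x *
      ((if x ∈ cl D (B a) then 1 else 0) - (if x ∈ B a then 1 else 0)) := by
  unfold G cs
  refine Finset.sum_congr rfl fun a _ => ?_
  rw [W_ind w (cl D (B a)), W_ind w (B a), add_zero, one_mul, ← Finset.sum_sub_distrib,
    Finset.mul_sum]
  refine Finset.sum_congr rfl fun x _ => ?_
  ring

/-- The one layer theorem for complete pairs. -/
theorem one_layer {D : OGraph V} {w : V → ℝ} (hw : ∀ v, 0 ≤ w v) {B Q : V → Finset V}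
    (h : Feas D B Q) (hc : ∀ a b, a ≠ b → b ∈ B a ∨ a ∈ Q b) :
    G D w 0 (star D B) + G D w 0 (star D Q) ≤ G D w 0 B + G D w 0 Q := by
  have e : ∀ R : V → Finset V, G D w 0 R = ∑ a, ∑ x, w a * w x *
      ((if a ∈ cl D (R x) then 1 else 0) - (if a ∈ R x then 1 else 0)) := by
    intro R
    rw [G_zero, Finset.sum_comm]
    refine Finset.sum_congr rfl fun a _ => Finset.sum_congr rfl fun x _ => ?_
    ring
  rw [G_zero D w (star D B), e (star D Q), G_zero D w B, e Q, ← Finset.sum_add_distrib,
    ← Finset.sum_add_distrib]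
  refine Finset.sum_le_sum fun a _ => ?_
  rw [← Finset.sum_add_distrib, ← Finset.sum_add_distrib]
  refine Finset.sum_le_sum fun x _ => ?_
  have hwx : 0 ≤ w a * w x := mul_nonneg (hw a) (hw x)
  rw [← mul_add, ← mul_add]
  refine mul_le_mul_of_nonneg_left ?_ hwx
  by_cases hax : a = x
  · subst hax
    have h1 := star_self h a
    have h2 := star_self h.swap a
    have h3 : a ∈ cl D (star D B a) := mem_cl'.2 ⟨a, Or.inl rfl, h1⟩
    have h4 : a ∈ cl D (star D Q a) := mem_cl'.2 ⟨a, Or.inl rfl, h2⟩
    have h5 := h.hP a a (Or.inl rfl)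
    have h6 := h.hQ a a (Or.inl rfl)
    have h7 : a ∈ cl D (B a) := mem_cl'.2 ⟨a, Or.inl rfl, h5⟩
    have h8 : a ∈ cl D (Q a) := mem_cl'.2 ⟨a, Or.inl rfl, h6⟩
    simp [h1, h2, h3, h4, h5, h6, h7, h8]
  · have k1 : x ∈ star D B a ↔ a ∉ cl D (Q x) := by
      rw [mem_star, mem_cl']
      constructor
      · rintro h1 ⟨u, hu, huQ⟩
        have h2 := h.anti u x (h1 u hu) huQ
        subst h2
        have h3 := h.anti a u (h1 a (Or.inl rfl)) (h.hQ u a hu)
        exact hax h3
      · intro h1 u hu
        by_contra h2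
        by_cases hux : u = x
        · subst hux
          exact h2 (h.hP u u (Or.inl rfl))
        · rcases hc u x hux with h3 | h3
          · exact h2 h3
          · exact h1 ⟨u, hu, h3⟩
    have k2 : a ∈ star D Q x ↔ x ∉ cl D (B a) := by
      rw [mem_star, mem_cl']
      constructor
      · rintro h1 ⟨u, hu, huB⟩
        have h2 := h.anti a u huB (h1 u hu)
        subst h2
        have h3 := h.anti a x (h.hP a x hu) (h1 x (Or.inl rfl))
        exact hax h3
      · intro h1 u hu
        by_contra h2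
        by_cases hua : u = a
        · subst hua
          exact h2 (h.hQ u u (Or.inl rfl))
        · rcases hc a u (fun e => hua e.symm) with h3 | h3
          · exact h1 ⟨u, hu, h3⟩
          · exact h2 h3
    have k3 : ¬ (x ∈ B a ∧ a ∈ Q x) := fun h1 => hax (h.anti a x h1.1 h1.2)
    have k4 := hc a x hax
    have k5 : ¬ (x ∈ cl D (star D B a) ∧ a ∈ cl D (star D Q x)) :=
      fun h1 => hax (h.cl_star.anti a x h1.1 h1.2)
    simp only [k1, k2]
    by_cases c1 : a ∈ cl D (Q x) <;> by_cases c2 : x ∈ cl D (B a) <;>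
      by_cases c3 : x ∈ B a <;> by_cases c4 : a ∈ Q x <;>
      by_cases c5 : x ∈ cl D (star D B a) <;> by_cases c6 : a ∈ cl D (star D Q x) <;>
      simp only [c1, c2, c3, c4, c5, c6, and_self, not_true, not_false_eq_true, or_self,
        true_and, and_true, if_true, if_false] at k3 k4 k5 ⊢ <;> norm_num

theorem W_submod (w : V → ℝ) (S T : Finset V) : W w (S ∩ T) + W w (S ∪ T) = W w S + W w T := by
  unfold W
  rw [add_comm]
  exact Finset.sum_union_inter

theorem cl_union' (D : OGraph V) (S T : Finset V) : cl D (S ∪ T) = cl D S ∪ cl D T := by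
  ext x
  simp only [mem_cl', Finset.mem_union]
  constructor
  · rintro ⟨v, hv, h | h⟩
    · exact Or.inl ⟨v, hv, h⟩
    · exact Or.inr ⟨v, hv, h⟩
  · rintro (⟨v, hv, h⟩ | ⟨v, hv, h⟩)
    · exact ⟨v, hv, Or.inl h⟩
    · exact ⟨v, hv, Or.inr h⟩

theorem cl_mono {D : OGraph V} {S T : Finset V} (h : S ⊆ T) : cl D S ⊆ cl D T := by
  intro x hx
  obtain ⟨v, hv, hv'⟩ := mem_cl'.1 hx
  exact mem_cl'.2 ⟨v, hv, h hv'⟩

theorem subset_cl (D : OGraph V) (S : Finset V) : S ⊆ cl D S :=
  fun x hx => mem_cl'.2 ⟨x, Or.inl rfl, hx⟩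

theorem cs_submod {D : OGraph V} {w : V → ℝ} (hw : ∀ v, 0 ≤ w v) (s : ℝ) (S T : Finset V) :
    cs D w s (S ∩ T) + cs D w s (S ∪ T) ≤ cs D w s S + cs D w s T := by
  unfold cs
  have h1 := W_submod w S T
  have h2 := W_submod w (cl D S) (cl D T)
  have h3 : W w (cl D (S ∩ T)) ≤ W w (cl D S ∩ cl D T) := W_mono hw
    (Finset.subset_inter (cl_mono Finset.inter_subset_left) (cl_mono Finset.inter_subset_right))
  rw [cl_union']
  have h4 : (1 + s) * W w (S ∩ T) + (1 + s) * W w (S ∪ T) = (1 + s) * W w S + (1 + s) * W w T := by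
    rw [← mul_add, h1, mul_add]
  linarith

/-- Total weight of a family. -/
noncomputable def TW (w : V → ℝ) (B : V → Finset V) : ℝ := ∑ a, w a * W w (B a)

theorem G_shift (D : OGraph V) (w : V → ℝ) (s s' : ℝ) (B : V → Finset V) :
    G D w s B = G D w s' B + (s' - s) * TW w B := by
  unfold G cs TW
  rw [Finset.mul_sum, ← Finset.sum_add_distrib]
  refine Finset.sum_congr rfl fun a _ => ?_
  ring

theorem TW_comm (w : V → ℝ) (B : V → Finset V) :
    TW w B = ∑ v, w v * W w (Finset.univ.filter fun a => v ∈ B a) := by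
  unfold TW
  have e1 : ∀ a, w a * W w (B a) = ∑ v, if v ∈ B a then w a * w v else 0 := by
    intro a
    rw [W_ind, Finset.mul_sum]
    refine Finset.sum_congr rfl fun v _ => ?_
    split_ifs <;> ring
  have e2 : ∀ v, w v * W w (Finset.univ.filter fun a => v ∈ B a) =
      ∑ a, if v ∈ B a then w a * w v else 0 := by
    intro v
    rw [W_ind, Finset.mul_sum]
    refine Finset.sum_congr rfl fun a _ => ?_
    simp only [Finset.mem_filter, Finset.mem_univ, true_and]
    split_ifs <;> ring
  rw [Finset.sum_congr rfl fun a _ => e1 a, Finset.sum_congr rfl fun v _ => e2 v,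
    Finset.sum_comm]

/-- Column inequality. -/
theorem column {D : OGraph V} {w : V → ℝ} (hw : ∀ v, 0 ≤ w v) {P Q Ph : V → Finset V}
    (hPh : ∀ u v, v ∈ Ph u ↔ (v = u ∨ u ∉ Q v))
    (hC : ∀ v (T : Finset V), (∀ u ∈ T, v ∈ Ph u ∧ v ∉ P u) →
      W w T ≤ W w (cl D T \ cl D (Q v)))
    (B : V → Finset V) (hPB : ∀ u, P u ⊆ B u) (hBP : ∀ u, B u ⊆ Ph u)
    (hQ : ∀ a b, (a = b ∨ D.arc a b) → b ∈ Q a) (hPP : ∀ a b, (a = b ∨ D.arc a b) → b ∈ P a) :
    TW w Ph - TW w B ≤ TW w (star D Ph) - TW w (star D B) := by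
  classical
  rw [TW_comm, TW_comm w B, TW_comm w (star D Ph), TW_comm w (star D B),
    ← Finset.sum_sub_distrib, ← Finset.sum_sub_distrib]
  refine Finset.sum_le_sum fun v _ => ?_
  rw [← mul_sub, ← mul_sub]
  refine mul_le_mul_of_nonneg_left ?_ (hw v)
  have s1 : (Finset.univ.filter fun a => v ∈ B a) ⊆ Finset.univ.filter fun a => v ∈ Ph a := by
    intro a ha
    rw [Finset.mem_filter] at ha ⊢
    exact ⟨ha.1, hBP a ha.2⟩
  have s2 : (Finset.univ.filter fun a => v ∈ star D B a) ⊆
      Finset.univ.filter fun a => v ∈ star D Ph a := by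
    intro a ha
    rw [Finset.mem_filter] at ha ⊢
    exact ⟨ha.1, mem_star.2 fun u hu => hBP u (mem_star.1 ha.2 u hu)⟩
  rw [← W_sdiff s1, ← W_sdiff s2]
  set T : Finset V := (Finset.univ.filter fun a => v ∈ Ph a) \ (Finset.univ.filter fun a => v ∈ B a)
    with hT
  have mT : ∀ u, u ∈ T ↔ (v ∈ Ph u ∧ v ∉ B u) := by
    intro u
    simp [hT]
  refine (hC v T fun u hu => ⟨((mT u).1 hu).1, fun h => ((mT u).1 hu).2 (hPB u h)⟩).trans ?_
  refine W_mono hw ?_
  intro a ha
  rw [Finset.mem_sdiff] at ha
  obtain ⟨ha1, ha2⟩ := ha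
  obtain ⟨u, hu, huT⟩ := mem_cl'.1 ha1
  simp only [Finset.mem_sdiff, Finset.mem_filter, Finset.mem_univ, true_and]
  refine ⟨mem_star.2 fun z hz => ?_, fun h => ((mT u).1 huT).2 (mem_star.1 h u hu)⟩
  rw [hPh]
  right
  intro hzQ
  exact ha2 (mem_cl'.2 ⟨z, hz, hzQ⟩)

/-- The main induction. -/
theorem claim {D : OGraph V} {w : V → ℝ} (hw : ∀ v, 0 < w v) {P Ph : V → Finset V}
    (hcol : ∀ B : V → Finset V, (∀ u, P u ⊆ B u) → (∀ u, B u ⊆ Ph u) →
      TW w Ph - TW w B ≤ TW w (star D Ph) - TW w (star D B)) (n : ℕ) :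
    ∀ (s : ℝ) (B : V → Finset V), (∀ u, P u ⊆ B u) → (∀ u, B u ⊆ Ph u) →
      (∑ u, (Ph u \ B u).card = n) →
      (∀ u R, B u ⊆ R → R ⊆ Ph u → cs D w s (B u) ≤ cs D w s R) →
      G D w s Ph - G D w s B ≤ G D w s (star D Ph) - G D w s (star D B) := by
  classical
  have hw0 : ∀ v, 0 ≤ w v := fun v => (hw v).le
  induction n using Nat.strong_induction_on with
  | _ n ih =>
    intro s B hPB hBP hn hcrit
    by_cases hB : B = Ph
    · rw [hB]; simp
    -- candidates
    have hWpos : ∀ S T : Finset V, S ⊂ T → 0 < W w T - W w S := by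
      intro S T hST
      rw [← W_sdiff hST.1]
      unfold W
      refine Finset.sum_pos (fun v _ => hw v) ?_
      exact Finset.sdiff_nonempty.2 hST.2
    set C : Finset (V × Finset V) := Finset.univ.filter fun p => B p.1 ⊂ p.2 ∧ p.2 ⊆ Ph p.1
      with hCdef
    have mC : ∀ u R, (u, R) ∈ C ↔ (B u ⊂ R ∧ R ⊆ Ph u) := by
      intro u R
      simp [hCdef]
    have hCne : C.Nonempty := by
      by_contra hno
      rw [Finset.not_nonempty_iff_eq_empty] at hno
      apply hB
      funext u
      by_contra hne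
      have : (u, Ph u) ∈ C := (mC u (Ph u)).2
        ⟨Finset.ssubset_iff_subset_ne.2 ⟨hBP u, hne⟩, Finset.Subset.refl _⟩
      rw [hno] at this
      simp at this
    let r : V × Finset V → ℝ := fun p =>
      (cs D w 0 p.2 - cs D w 0 (B p.1)) / (W w p.2 - W w (B p.1))
    obtain ⟨⟨u, R⟩, hpC, hmin⟩ := Finset.exists_min_image C r hCne
    obtain ⟨huR, hRP⟩ := (mC u R).1 hpC
    set s' : ℝ := r (u, R) with hs'
    have hcs : ∀ t (S : Finset V), cs D w t S = cs D w 0 S - t * W w S := by
      intro t S
      unfold cs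
      ring
    have hd := hWpos _ _ huR
    have hseq : cs D w s' R = cs D w s' (B u) := by
      have h1 : s' * (W w R - W w (B u)) = cs D w 0 R - cs D w 0 (B u) := by
        rw [hs']
        exact div_mul_cancel₀ _ hd.ne'
      rw [hcs s' R, hcs s' (B u)]
      linarith
    have hss' : s ≤ s' := by
      rw [hs']
      show s ≤ (cs D w 0 R - cs D w 0 (B u)) / (W w R - W w (B u))
      rw [le_div_iff₀ hd]
      have h1 := hcrit u R huR.1 hRP
      rw [hcs s R, hcs s (B u)] at h1
      linarith
    have hcrit' : ∀ z S, B z ⊆ S → S ⊆ Ph z → cs D w s' (B z) ≤ cs D w s' S := by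
      intro z S h1 h2
      by_cases h3 : B z = S
      · rw [h3]
      · have h4 : B z ⊂ S := Finset.ssubset_iff_subset_ne.2 ⟨h1, h3⟩
        have h5 := hmin (z, S) ((mC z S).2 ⟨h4, h2⟩)
        have h6 := hWpos _ _ h4
        have h7 : s' ≤ (cs D w 0 S - cs D w 0 (B z)) / (W w S - W w (B z)) := h5
        rw [le_div_iff₀ h6] at h7
        rw [hcs s' S, hcs s' (B z)]
        linarith
    -- the new family
    set B' : V → Finset V := Function.update B u R with hB'
    have hB'u : B' u = R := by rw [hB']; simp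
    have hB'z : ∀ z, z ≠ u → B' z = B z := fun z hz => by rw [hB']; simp [hz]
    have hBB' : ∀ z, B z ⊆ B' z := by
      intro z
      by_cases hz : z = u
      · rw [hz, hB'u]; exact huR.1
      · rw [hB'z z hz]
    have hB'P : ∀ z, B' z ⊆ Ph z := by
      intro z
      by_cases hz : z = u
      · rw [hz, hB'u]; exact hRP
      · rw [hB'z z hz]; exact hBP z
    have hlt : ∑ z, (Ph z \ B' z).card < n := by
      rw [← hn]
      refine Finset.sum_lt_sum (fun z _ => Finset.card_le_card
        (Finset.sdiff_subset_sdiff (Finset.Subset.refl _) (hBB' z))) ⟨u, Finset.mem_univ _, ?_⟩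
      refine Finset.card_lt_card ?_
      rw [hB'u]
      refine Finset.ssubset_iff_subset_ne.2
        ⟨Finset.sdiff_subset_sdiff (Finset.Subset.refl _) huR.1, ?_⟩
      intro he
      obtain ⟨z, hz1, hz2⟩ := Finset.exists_of_ssubset huR
      have : z ∈ Ph u \ B u := Finset.mem_sdiff.2 ⟨hRP hz1, hz2⟩
      rw [← he] at this
      exact (Finset.mem_sdiff.1 this).2 hz1
    have hih := ih _ hlt s' B' (fun z => (hPB z).trans (hBB' z)) hB'P rfl (by
      intro z S h1 h2
      by_cases hz : z = u
      · subst hz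
        rw [hB'u] at h1 ⊢
        rw [hseq]
        exact hcrit' z S (huR.1.trans h1) h2
      · rw [hB'z z hz] at h1 ⊢
        exact hcrit' z S h1 h2)
    -- g is unchanged
    have hg : G D w s' B' = G D w s' B := by
      unfold G
      refine Finset.sum_congr rfl fun z _ => ?_
      by_cases hz : z = u
      · rw [hz, hB'u, hseq]
      · rw [hB'z z hz]
    -- f does not decrease
    have hf : G D w s' (star D B) ≤ G D w s' (star D B') := by
      unfold G
      refine Finset.sum_le_sum fun a _ => mul_le_mul_of_nonneg_left ?_ (hw0 a)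
      by_cases hua : u = a ∨ D.arc u a
      · have e1 : star D B a = star D B' a ∩ B u := by
          ext v
          rw [Finset.mem_inter, mem_star, mem_star]
          constructor
          · intro h1
            exact ⟨fun z hz => hBB' z (h1 z hz), h1 u hua⟩
          · rintro ⟨h1, h2⟩ z hz
            by_cases hzu : z = u
            · rw [hzu]; exact h2
            · have := h1 z hz
              rwa [hB'z z hzu] at this
        have h1 := cs_submod (D := D) hw0 s' (star D B' a) (B u)
        have h2 : cs D w s' (B u) ≤ cs D w s' (star D B' a ∪ B u) := by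
          refine hcrit' u _ Finset.subset_union_right (Finset.union_subset ?_ (hBP u))
          intro v hv
          exact hB'P u (mem_star.1 hv u hua)
        rw [e1]
        linarith
      · have e1 : star D B a = star D B' a := by
          ext v
          rw [mem_star, mem_star]
          constructor
          · intro h1 z hz
            exact hBB' z (h1 z hz)
          · intro h1 z hz
            have hzu : z ≠ u := by
              rintro rfl
              exact hua hz
            have := h1 z hz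
            rwa [hB'z z hzu] at this
        rw [e1]
    have hcl : G D w s' Ph - G D w s' B ≤ G D w s' (star D Ph) - G D w s' (star D B) := by
      rw [hg] at hih
      linarith
    have h1 := hcol B hPB hBP
    have h2 : 0 ≤ s' - s := by linarith
    have h3 := mul_le_mul_of_nonneg_left h1 h2
    rw [G_shift D w s s' Ph, G_shift D w s s' B, G_shift D w s s' (star D Ph),
      G_shift D w s s' (star D B)]
    nlinarith

/-- The theorem (SS). -/
theorem SS {D : OGraph V} {w : V → ℝ} (hw : ∀ v, 0 < w v) {P Q : V → Finset V}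
    (h : Feas D P Q)
    (hopt : ∀ P' Q', Feas D P' Q' → G D w 0 P + G D w 0 Q ≤ G D w 0 P' + G D w 0 Q') :
    G D w 0 (star D P) + G D w 0 (star D Q) ≤ G D w 0 P + G D w 0 Q := by
  classical
  have hw0 : ∀ v, 0 ≤ w v := fun v => (hw v).le
  set Ph : V → Finset V := fun u => Finset.univ.filter fun v => v = u ∨ u ∉ Q v with hPh'
  have hPh : ∀ u v, v ∈ Ph u ↔ (v = u ∨ u ∉ Q v) := by
    intro u v
    simp [hPh']
  have hPPh : ∀ u, P u ⊆ Ph u := by
    intro u v hv
    rw [hPh]
    by_cases huv : v = u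
    · exact Or.inl huv
    · exact Or.inr fun h1 => huv (h.anti u v hv h1).symm
  have hcomp : Feas D Ph Q := by
    refine ⟨fun a b hab => hPPh a (h.hP a b hab), h.hQ, fun a b h1 h2 => ?_⟩
    rcases (hPh a b).1 h1 with h3 | h3
    · exact h3.symm
    · exact absurd h2 h3
  have h1 := one_layer hw0 hcomp (by
    intro a b hab
    by_cases h2 : a ∈ Q b
    · exact Or.inr h2
    · exact Or.inl ((hPh a b).2 (Or.inr h2)))
  -- rows
  have hrow : ∀ u R, P u ⊆ R → R ⊆ Ph u → cs D w 0 (P u) ≤ cs D w 0 R := by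
    intro u R h2 h3
    have hf : Feas D (Function.update P u R) Q := by
      refine ⟨?_, h.hQ, ?_⟩
      · intro a b hab
        by_cases hau : a = u
        · subst hau
          rw [Function.update_self]
          exact h2 (h.hP a b hab)
        · rw [Function.update_of_ne hau]
          exact h.hP a b hab
      · intro a b h4 h5
        by_cases hau : a = u
        · subst hau
          rw [Function.update_self] at h4
          rcases (hPh a b).1 (h3 h4) with h6 | h6
          · exact h6.symm
          · exact absurd h5 h6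
        · rw [Function.update_of_ne hau] at h4
          exact h.anti a b h4 h5
    have h4 := hopt _ _ hf
    have h5 : G D w 0 (Function.update P u R) - G D w 0 P =
        w u * (cs D w 0 R - cs D w 0 (P u)) := by
      unfold G
      rw [← Finset.sum_sub_distrib, Finset.sum_eq_single u]
      · rw [Function.update_self]; ring
      · intro z _ hz
        rw [Function.update_of_ne hz]; ring
      · intro h6; exact absurd (Finset.mem_univ u) h6
    have h6 : 0 ≤ w u * (cs D w 0 R - cs D w 0 (P u)) := by linarith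
    have h7 := nonneg_of_mul_nonneg_right h6 (hw u)
    linarith
  -- columns
  have hC : ∀ v (T : Finset V), (∀ u ∈ T, v ∈ Ph u ∧ v ∉ P u) →
      W w T ≤ W w (cl D T \ cl D (Q v)) := by
    intro v T hT
    have hf : Feas D P (Function.update Q v (Q v ∪ T)) := by
      refine ⟨h.hP, ?_, ?_⟩
      · intro a b hab
        by_cases hav : a = v
        · subst hav
          rw [Function.update_self]
          exact Finset.mem_union_left _ (h.hQ a b hab)
        · rw [Function.update_of_ne hav]
          exact h.hQ a b hab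
      · intro a b h4 h5
        by_cases hbv : b = v
        · subst hbv
          rw [Function.update_self] at h5
          rcases Finset.mem_union.1 h5 with h6 | h6
          · exact h.anti a b h4 h6
          · exact absurd h4 (hT a h6).2
        · rw [Function.update_of_ne hbv] at h5
          exact h.anti a b h4 h5
    have h4 := hopt _ _ hf
    have h5 : G D w 0 (Function.update Q v (Q v ∪ T)) - G D w 0 Q =
        w v * (cs D w 0 (Q v ∪ T) - cs D w 0 (Q v)) := by
      unfold G
      rw [← Finset.sum_sub_distrib, Finset.sum_eq_single v]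
      · rw [Function.update_self]; ring
      · intro z _ hz
        rw [Function.update_of_ne hz]; ring
      · intro h6; exact absurd (Finset.mem_univ v) h6
    have h6 : 0 ≤ w v * (cs D w 0 (Q v ∪ T) - cs D w 0 (Q v)) := by linarith
    have h7 := nonneg_of_mul_nonneg_right h6 (hw v)
    have hdis : Disjoint (Q v) T := by
      rw [Finset.disjoint_left]
      intro u hu huT
      obtain ⟨h8, h9⟩ := hT u huT
      rcases (hPh u v).1 h8 with h10 | h10
      · subst h10
        exact h9 (h.hP v v (Or.inl rfl))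
      · exact h10 hu
    have h8 : W w (Q v ∪ T) = W w (Q v) + W w T := W_union hdis
    have h9 : W w (cl D (Q v) ∪ cl D T) = W w (cl D (Q v)) + W w (cl D T \ cl D (Q v)) := by
      rw [← W_union Finset.disjoint_sdiff, Finset.union_sdiff_self_eq_union]
    unfold cs at h7
    rw [cl_union', h8, h9] at h7
    linarith
  have h2 := claim (D := D) hw (P := P) (Ph := Ph)
    (fun B hPB hBP => column hw0 hPh hC B hPB hBP h.hQ h.hP) _ 0 P (fun u => Finset.Subset.refl _)
    hPPh rfl hrow
  linarith

end Vale.Agent.P038.H58
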