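import Vale.Agent.P038.H139.GStep
import Vale.Agent.P038.H139.Ex
import Vale.Agent.P038.H58.SS

/-!
# Seymour's second neighbourhood conjecture
-/

namespace Vale.Agent.P038.H58

open Finset Vale.Agent.P038.H139

variable {V : Type*} [Fintype V] [DecidableEq V]

open Classical in
/-- The number of arcs. -/
noncomputable def na (D : OGraph V) : ℕ :=
  (Finset.univ.filter fun p : V × V => D.arc p.1 p.2).card

/-- The strict inequality (G): in a counterexample with the fewest arcs, the second neighbourhood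
of every set which is not closed is lighter than its first neighbourhood. -/
theorem strictG {D : OGraph V} {w : V → ℝ} (hw : ∀ v, 0 < w v) (hF : ∀ v, 0 < Fw 1 D w v)
    (hmin : ∀ D' : OGraph V, (∀ v, 0 < Fw 1 D' w v) → na D ≤ na D') (X : Finset V)
    (hX : cl D X ≠ X) : cs D w 0 (cl D X) < cs D w 0 X := by
  classical
  have hw0 : ∀ v, 0 ≤ w v := fun v => (hw v).le
  set L := cl D X \ X with hL
  set d : Finset V → ℝ := fun T => W w (cl D T \ X) - 2 * W w T with hd
  have hLX : Disjoint X L := Finset.disjoint_sdiff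
  have hclX : cl D X = X ∪ L := by
    rw [hL, Finset.union_sdiff_of_subset (subset_cl D X)]
  have hLne : L.Nonempty := by
    rw [hL, Finset.sdiff_nonempty]
    intro h
    exact hX (Finset.Subset.antisymm h (subset_cl D X))
  have e1 : W w (cl D X) = W w X + W w L := by rw [hclX, W_union hLX]
  have e2 : W w (cl D (cl D X)) = W w X + W w (cl D L \ X) := by
    rw [← W_union Finset.disjoint_sdiff, Finset.union_sdiff_self_eq_union]
    have h9 : cl D (cl D X) = cl D (X ∪ L) := congrArg (cl D) hclX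
    rw [h9, cl_union']
    congr 1
    ext z
    simp only [Finset.mem_union]
    constructor
    · rintro (h | h)
      · rw [hclX, Finset.mem_union] at h
        rcases h with h | h
        · exact Or.inl h
        · exact Or.inr (subset_cl D L h)
      · exact Or.inr h
    · rintro (h | h)
      · exact Or.inl (subset_cl D X h)
      · exact Or.inr h
  have hgoal : cs D w 0 (cl D X) = W w L + d L - 0 ∧ cs D w 0 X = W w L := by
    unfold cs
    simp only [hd]
    rw [e2, e1]
    constructor <;> ring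
  rw [hgoal.1, hgoal.2]
  by_contra hcon
  have hdL : 0 ≤ d L := by linarith [not_lt.1 hcon]
  have hd0 : d ∅ = 0 := by
    have : cl D (∅ : Finset V) = ∅ := by
      rw [Finset.eq_empty_iff_forall_notMem]
      intro z hz
      rw [mem_cl] at hz
      simp at hz
    simp [hd, this, W]
  obtain ⟨T, hT, hTmin⟩ := Finset.exists_min_image (L.powerset.erase L) d
    ⟨∅, Finset.mem_erase.2 ⟨hLne.ne_empty.symm, Finset.empty_mem_powerset _⟩⟩
  obtain ⟨hTne, hTL'⟩ := Finset.mem_erase.1 hT
  have hTL : T ⊆ L := Finset.mem_powerset.1 hTL'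
  have hTall : ∀ T' ⊆ L, d T ≤ d T' := by
    intro T' hT'
    by_cases h : T' = L
    · have h1 := hTmin ∅ (Finset.mem_erase.2 ⟨hLne.ne_empty.symm, Finset.empty_mem_powerset _⟩)
      rw [h]
      linarith
    · exact hTmin T' (Finset.mem_erase.2 ⟨h, Finset.mem_powerset.2 hT'⟩)
  set Z := L \ T with hZ
  set D' := del D X Z with hD'
  have harc : ∀ a b, D'.arc a b ↔ (D.arc a b ∧ ¬ (a ∈ X ∧ b ∈ Z)) := fun a b => Iff.rfl
  have key : ∀ y ∈ X, Fw 1 D w y - 2 * W w (N1 D y ∩ Z) +
      W w (cl D (N1 D y ∩ Z) \ (cl D T ∪ X)) ≤ Fw 1 D' w y := by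
    intro y hy
    set Dy := N1 D y ∩ Z with hDy
    set Ey := cl D Dy \ (cl D T ∪ X) with hEy
    have hN1 : N1 D' y = N1 D y \ Dy := by
      ext z
      constructor
      · intro h0
        have h1 : D.arc y z ∧ ¬ (y ∈ X ∧ z ∈ Z) := mem_N1.1 h0
        exact Finset.mem_sdiff.2 ⟨mem_N1.2 h1.1,
          fun h3 => h1.2 ⟨hy, (Finset.mem_inter.1 h3).2⟩⟩
      · intro h0
        obtain ⟨h1, h2⟩ := Finset.mem_sdiff.1 h0
        have h3 : D.arc y z ∧ ¬ (y ∈ X ∧ z ∈ Z) :=
          ⟨mem_N1.1 h1, fun h3 => h2 (Finset.mem_inter.2 ⟨h1, h3.2⟩)⟩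
        exact mem_N1.2 h3
    have hEsub : Ey ⊆ N2 D y ∪ Dy := by
      intro z hz
      obtain ⟨hz1, hz2⟩ := Finset.mem_sdiff.1 hz
      have hzX : z ∉ X := fun h => hz2 (Finset.mem_union_right _ h)
      have hzT : z ∉ cl D T := fun h => hz2 (Finset.mem_union_left _ h)
      by_cases hyz : D.arc y z
      · refine Finset.mem_union_right _ (Finset.mem_inter.2 ⟨mem_N1.2 hyz, ?_⟩)
        rw [hZ, Finset.mem_sdiff, hL, Finset.mem_sdiff]
        exact ⟨⟨mem_cl.2 (Or.inr ⟨y, hy, hyz⟩), hzX⟩, fun h => hzT (subset_cl D T h)⟩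
      · rcases mem_cl.1 hz1 with h | ⟨c, hc, hcz⟩
        · exact Finset.mem_union_right _ h
        · refine Finset.mem_union_left _ (mem_N2.2 ⟨?_, hyz, c, ?_, hcz⟩)
          · rintro rfl
            exact hzX hy
          · exact mem_N1.1 (Finset.mem_inter.1 hc).1
    have hN2 : N2 D' y ⊆ (N2 D y ∪ Dy) \ Ey := by
      intro z hz
      rw [mem_N2] at hz
      obtain ⟨hzy, hnz, c, hyc, hcz⟩ := hz
      rw [harc] at hnz hyc hcz
      refine Finset.mem_sdiff.2 ⟨?_, ?_⟩
      · by_cases hyz : D.arc y z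
        · refine Finset.mem_union_right _ (Finset.mem_inter.2 ⟨mem_N1.2 hyz, ?_⟩)
          by_contra hzZ
          exact hnz ⟨hyz, fun h3 => hzZ h3.2⟩
        · exact Finset.mem_union_left _ (mem_N2.2 ⟨hzy, hyz, c, hyc.1, hcz.1⟩)
      · intro hzE
        obtain ⟨_, hz2⟩ := Finset.mem_sdiff.1 hzE
        have hzX : z ∉ X := fun h3 => hz2 (Finset.mem_union_right _ h3)
        have hzT : z ∉ cl D T := fun h3 => hz2 (Finset.mem_union_left _ h3)
        by_cases hcX : c ∈ X
        · have hzL : z ∈ L := by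
            rw [hL]
            exact Finset.mem_sdiff.2 ⟨mem_cl.2 (Or.inr ⟨c, hcX, hcz.1⟩), hzX⟩
          have hzZ : z ∈ Z := Finset.mem_sdiff.2 ⟨hzL, fun h3 => hzT (subset_cl D T h3)⟩
          exact hcz.2 ⟨hcX, hzZ⟩
        · have hcL : c ∈ L := by
            rw [hL]
            exact Finset.mem_sdiff.2 ⟨mem_cl.2 (Or.inr ⟨y, hy, hyc.1⟩), hcX⟩
          have hcT : c ∈ T := by
            by_contra hcT
            exact hyc.2 ⟨hy, Finset.mem_sdiff.2 ⟨hcL, hcT⟩⟩
          exact hzT (mem_cl.2 (Or.inr ⟨c, hcT, hcz.1⟩))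
    have h1 := W_mono hw0 hN2
    rw [W_sdiff hEsub, W_union (by
      rw [Finset.disjoint_left]
      intro z hz hz'
      exact (mem_N2.1 hz).2.1 (mem_N1.1 (Finset.mem_inter.1 hz').1))] at h1
    have h2 : W w (N1 D' y) = W w (N1 D y) - W w Dy := by
      rw [hN1, W_sdiff Finset.inter_subset_left]
    unfold Fw
    rw [h2]
    linarith
  have hE : ∀ y, 2 * W w (N1 D y ∩ Z) ≤ W w ((cl D (N1 D y ∩ Z)) \ (cl D T ∪ X)) := by
    intro y
    set Dy := N1 D y ∩ Z with hDy
    have hDyL : Dy ⊆ L := Finset.inter_subset_right.trans Finset.sdiff_subset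
    have hDT : Disjoint T Dy := by
      rw [Finset.disjoint_left]
      intro z hz hz'
      exact (Finset.mem_sdiff.1 (Finset.mem_inter.1 hz').2).2 hz
    have h1 := hTall (T ∪ Dy) (Finset.union_subset hTL hDyL)
    have e1 : cl D (T ∪ Dy) \ X = (cl D T \ X) ∪ (cl D Dy \ (cl D T ∪ X)) := by
      rw [cl_union']
      ext z
      simp only [Finset.mem_sdiff, Finset.mem_union]
      tauto
    have e2 : Disjoint (cl D T \ X) (cl D Dy \ (cl D T ∪ X)) := by
      rw [Finset.disjoint_left]
      intro z hz hz'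
      exact (Finset.mem_sdiff.1 hz').2 (Finset.mem_union_left _ (Finset.mem_sdiff.1 hz).1)
    simp only [hd] at h1
    rw [e1, W_union e2, W_union hDT] at h1
    linarith
  have hall : ∀ v, 0 < Fw 1 D' w v := by
    intro v
    have h0 := hF v
    by_cases hv : v ∈ X
    · have h1 := key v hv
      have h2 := hE v
      linarith
    · have h1 : N1 D' v = N1 D v := by
        ext z
        rw [mem_N1, mem_N1]
        exact ⟨fun h3 => h3.1, fun h3 => ⟨h3, fun h4 => hv h4.1⟩⟩
      have h2 : N2 D' v ⊆ N2 D v := by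
        intro z hz
        rw [mem_N2] at hz ⊢
        obtain ⟨hzv, hnz, c, hvc, hcz⟩ := hz
        exact ⟨hzv, fun h3 => hnz ⟨h3, fun h4 => hv h4.1⟩, c, hvc.1, hcz.1⟩
      have h3 := W_mono hw0 h2
      unfold Fw at h0 ⊢
      rw [h1]
      linarith
  have hZne : Z.Nonempty := by
    rw [hZ, Finset.sdiff_nonempty]
    intro h
    exact hTne (Finset.Subset.antisymm hTL h)
  obtain ⟨z, hz⟩ := hZne
  have hzL : z ∈ cl D X \ X := (Finset.mem_sdiff.1 hz).1
  obtain ⟨hz1, hz2⟩ := Finset.mem_sdiff.1 hzL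
  obtain ⟨y, hy, hyz⟩ : ∃ y ∈ X, D.arc y z := (mem_cl.1 hz1).resolve_left hz2
  have hlt : na D' < na D := by
    unfold na
    refine Finset.card_lt_card (Finset.ssubset_iff_subset_ne.2 ⟨?_, ?_⟩)
    · intro p hp
      rw [Finset.mem_filter] at hp ⊢
      exact ⟨hp.1, hp.2.1⟩
    · intro he
      have : (y, z) ∈ Finset.univ.filter fun p : V × V => D.arc p.1 p.2 := by
        rw [Finset.mem_filter]
        exact ⟨Finset.mem_univ _, hyz⟩
      rw [← he, Finset.mem_filter] at this
      exact this.2.2 ⟨hy, hz⟩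
  exact absurd (hmin D' hall) (not_le.2 hlt)

/-- There is no counterexample with the fewest arcs. -/
theorem no_min {D : OGraph V} {w : V → ℝ} [Nonempty V] (hw : ∀ v, 0 < w v)
    (hF : ∀ v, 0 < Fw 1 D w v)
    (hmin : ∀ D' : OGraph V, (∀ v, 0 < Fw 1 D' w v) → na D ≤ na D') : False := by
  classical
  have hw0 : ∀ v, 0 ≤ w v := fun v => (hw v).le
  -- the optimal pair
  set S : Finset ((V → Finset V) × (V → Finset V)) :=
    Finset.univ.filter fun p => Feas D p.1 p.2 with hS
  have hSne : S.Nonempty := by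
    refine ⟨(fun a => cl D {a}, fun a => cl D {a}), ?_⟩
    rw [hS, Finset.mem_filter]
    refine ⟨Finset.mem_univ _, ?_, ?_, ?_⟩
    · intro a b hab
      exact mem_cl'.2 ⟨a, hab, Finset.mem_singleton_self a⟩
    · intro a b hab
      exact mem_cl'.2 ⟨a, hab, Finset.mem_singleton_self a⟩
    · intro a b h1 h2
      obtain ⟨v, hv, hv'⟩ := mem_cl'.1 h1
      obtain ⟨z, hz, hz'⟩ := mem_cl'.1 h2
      rw [Finset.mem_singleton] at hv' hz'
      subst hv' hz'
      rcases hv with h | h
      · exact h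
      · rcases hz with h' | h'
        · exact h'.symm
        · exact absurd h' (D.asymm _ _ h)
  obtain ⟨⟨P, Q⟩, hPQ, hPQmin⟩ := Finset.exists_min_image S
    (fun p => G D w 0 p.1 + G D w 0 p.2) hSne
  have hfeas : Feas D P Q := by
    rw [hS, Finset.mem_filter] at hPQ
    exact hPQ.2
  have hopt : ∀ P' Q', Feas D P' Q' → G D w 0 P + G D w 0 Q ≤ G D w 0 P' + G D w 0 Q' := by
    intro P' Q' h
    exact hPQmin (P', Q') (by rw [hS, Finset.mem_filter]; exact ⟨Finset.mem_univ _, h⟩)
  have hss := SS hw hfeas hopt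
  have h2 := hopt _ _ hfeas.cl_star
  have hle : ∀ X : Finset V, cs D w 0 (cl D X) ≤ cs D w 0 X := by
    intro X
    by_cases hX : cl D X = X
    · rw [hX]
    · exact (strictG hw hF hmin X hX).le
  -- a set which is not closed
  obtain ⟨a, ha⟩ : ∃ a, cl D (star D P a) ≠ star D P a := by
    by_contra hno
    push Not at hno
    set C : Finset (Finset V) := Finset.univ.filter fun S => S.Nonempty ∧ cl D S = S with hC
    have hCne : C.Nonempty := by
      refine ⟨Finset.univ, ?_⟩
      rw [hC, Finset.mem_filter]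
      exact ⟨Finset.mem_univ _, Finset.univ_nonempty,
        Finset.Subset.antisymm (Finset.subset_univ _) (subset_cl D _)⟩
    obtain ⟨S0, hS0, hS0min⟩ := Finset.exists_min_image C Finset.card hCne
    rw [hC, Finset.mem_filter] at hS0
    obtain ⟨-, ⟨a, ha⟩, hcl⟩ := hS0
    have hsub : ∀ a ∈ S0, S0 ⊆ star D P a := by
      intro a ha
      have h3 : S0 ∩ star D P a ∈ C := by
        rw [hC, Finset.mem_filter]
        refine ⟨Finset.mem_univ _, ⟨a, Finset.mem_inter.2 ⟨ha, star_self hfeas a⟩⟩, ?_⟩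
        refine Finset.Subset.antisymm (Finset.subset_inter ?_ ?_) (subset_cl D _)
        · exact (cl_mono Finset.inter_subset_left).trans hcl.subset
        · exact (cl_mono Finset.inter_subset_right).trans (hno a).subset
      have h4 := hS0min _ h3
      have h5 : S0 ∩ star D P a = S0 :=
        Finset.eq_of_subset_of_card_le Finset.inter_subset_left h4
      rw [← h5]
      exact Finset.inter_subset_right
    -- a has an out-neighbour
    obtain ⟨b, hab⟩ : ∃ b, D.arc a b := by
      by_contra hnb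
      push Not at hnb
      have h3 : N1 D a = ∅ := by
        rw [Finset.eq_empty_iff_forall_notMem]
        intro z hz
        exact hnb z (mem_N1.1 hz)
      have h4 := hF a
      unfold Fw at h4
      rw [h3] at h4
      have h5 := W_nonneg hw0 (N2 D a)
      have h6 : W w (∅ : Finset V) = 0 := by simp [W]
      rw [h6] at h4
      linarith
    have hb : b ∈ S0 := by
      rw [← hcl]
      exact mem_cl.2 (Or.inr ⟨a, ha, hab⟩)
    have h3 := hsub b hb ha
    have h4 : a ∈ P b := mem_star.1 h3 b (Or.inl rfl)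
    have h5 : b ∈ Q a := hfeas.hQ a b (Or.inr hab)
    have h6 := hfeas.anti b a h4 h5
    subst h6
    exact D.loopless _ hab
  have h3 : G D w 0 (fun a => cl D (star D P a)) < G D w 0 (star D P) := by
    unfold G
    refine Finset.sum_lt_sum (fun z _ => mul_le_mul_of_nonneg_left (hle _) (hw0 z))
      ⟨a, Finset.mem_univ _, ?_⟩
    exact mul_lt_mul_of_pos_left (strictG hw hF hmin _ ha) (hw a)
  have h4 : G D w 0 (fun a => cl D (star D Q a)) ≤ G D w 0 (star D Q) := by
    unfold G
    exact Finset.sum_le_sum fun z _ => mul_le_mul_of_nonneg_left (hle _) (hw0 z)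
  linarith

/-- Seymour's second neighbourhood conjecture with positive weights. -/
theorem main_pos (D : OGraph V) [Nonempty V] (w : V → ℝ) (hw : ∀ v, 0 < w v) :
    ∃ v, W w (N1 D v) ≤ W w (N2 D v) := by
  classical
  by_contra hcon
  push Not at hcon
  have hne : {D' : OGraph V | ∀ v, 0 < Fw 1 D' w v}.Nonempty :=
    ⟨D, fun v => by unfold Fw; linarith [hcon v]⟩
  obtain ⟨D0, hD0, hmin⟩ := Set.exists_min_image {D' : OGraph V | ∀ v, 0 < Fw 1 D' w v} na
    (Set.toFinite _) hne
  exact no_min hw hD0 hmin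

end Vale.Agent.P038.H58
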