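import Vale.Agent.P038.H58.Final

/-!
# Nonnegative weights
-/

namespace Vale.Agent.P038.H58

open Finset Vale.Agent.P038.H139

variable {V : Type*} [Fintype V]

/-- Seymour's second neighbourhood conjecture with nonnegative weights. -/
theorem main_nonneg [Nonempty V] (D : OGraph V) (w : V → ℝ) (hw : ∀ v, 0 ≤ w v) :
    ∃ v, ∑ x ∈ N1 D v, w x ≤ ∑ x ∈ N2 D v, w x := by
  classical
  by_contra hcon
  push Not at hcon
  obtain ⟨v0, -, hv0⟩ := Finset.exists_min_image (Finset.univ : Finset V)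
    (fun v => ∑ x ∈ N1 D v, w x - ∑ x ∈ N2 D v, w x) Finset.univ_nonempty
  set δ : ℝ := ∑ x ∈ N1 D v0, w x - ∑ x ∈ N2 D v0, w x with hδ
  have hδ0 : 0 < δ := by
    have := hcon v0
    linarith
  set m : ℝ := (Fintype.card V : ℝ) with hm
  have hm0 : 0 < m := by
    rw [hm]
    exact_mod_cast Fintype.card_pos
  set ε : ℝ := δ / (2 * m) with hε
  have hε0 : 0 < ε := by positivity
  obtain ⟨v, hv⟩ := main_pos D (fun x => w x + ε) (fun x => by linarith [hw x])
  unfold W at hv
  rw [Finset.sum_add_distrib, Finset.sum_add_distrib, Finset.sum_const, Finset.sum_const,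
    nsmul_eq_mul, nsmul_eq_mul] at hv
  have h1 : δ ≤ ∑ x ∈ N1 D v, w x - ∑ x ∈ N2 D v, w x := hv0 v (Finset.mem_univ v)
  have h2 : ((N2 D v).card : ℝ) ≤ m := by
    rw [hm]
    exact_mod_cast Finset.card_le_univ _
  have h3 : (0 : ℝ) ≤ (N1 D v).card := Nat.cast_nonneg _
  have h4 : m * ε = δ / 2 := by
    rw [hε]
    field_simp
  have h5 := mul_le_mul_of_nonneg_right h2 hε0.le
  have h6 := mul_nonneg h3 hε0.le
  linarith

end Vale.Agent.P038.H58
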